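import Vale.Agent.P092.H828.EndT
import Vale.Agent.P092.H494.QEnd

/-!
P092 (helper305), project Q for all amplifications, block Q-END: tight frames and a finite set of
group elements which act trivially at all places.  The proofs follow helper494 (Q-END) and
helper828 (END-T).
-/

set_option linter.all false

open scoped InnerProductSpace
open Filter Topology ContinuousLinearMap MeasureTheory

namespace Vale.Agent.P092.QT.EndT

open Vale.Agent.P092.H828 (URep exists_unit exists_max orthonormal_snoc overlap conj_mul mul_zero_of_conj)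
open Vale.Agent.P092.H494

variable {E : Type*} [NormedAddCommGroup E] [InnerProductSpace ℂ E] [CompleteSpace E]
variable {X Γ : Type*} [Group X] [Group Γ] {R : X → (E →L[ℂ] E)} {V : Γ → (E →L[ℂ] E)} {ξ : E}

/-- The frame condition. -/
def Tig (R : X → (E →L[ℂ] E)) (ξ : E) : Prop :=
  ∃ C : ℝ, 0 < C ∧ ∀ v : E, HasSum (fun x => ‖⟪R x ξ, v⟫_ℂ‖ ^ 2) (C * ‖v‖ ^ 2)

/-- Uniform bound for orthonormal families on which an almost orthogonal operator is bounded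
below. -/
theorem exists_bound (hU : URep R) (hf : Tig R ξ) {T : E →L[ℂ] E}
    (hTn : adjoint T * T = T * adjoint T)
    {N : Finset X} (hN : ∀ x, x ∉ N → (adjoint T * T) * cj R (adjoint T * T) x = 0)
    {c : ℝ} (hc : 0 < c) {M : ℝ} (hM : ‖T‖ ^ 2 ≤ M) (m : ℕ) (e : Fin m → E) (he : Orthonormal ℂ e)
    (heL : ∀ i, c ≤ ‖T (e i)‖ ^ 2) {C : ℝ} (hC : 0 < C)
    (hp : ∀ v : E, HasSum (fun x => ‖⟪R x ξ, v⟫_ℂ‖ ^ 2) (C * ‖v‖ ^ 2)) :
    (m : ℝ) ≤ ((N.card * M) * ‖ξ‖ ^ 2) / (C * c) := by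
  classical
  obtain ⟨B, hB⟩ : ∃ B : ℝ, B = (N.card * ‖T‖ ^ 2) * ‖ξ‖ ^ 2 := ⟨_, rfl⟩
  have hnorm : ∀ v, ‖adjoint T v‖ ^ 2 = ‖T v‖ ^ 2 := by
    intro v
    rw [← qf_adj_mul T v, ← qf_adj_mul (adjoint T) v, adjoint_adjoint, hTn]
  have hsum : ∀ s : Finset X, ∑ x ∈ s, ‖adjoint T (R x ξ)‖ ^ 2 ≤ B := by
    intro s
    have h1 := almost_orth hU hN (s.image fun x => x⁻¹) ξ
    rw [Finset.sum_image (fun a _ b _ hab => inv_injective hab)] at h1
    simp only [inv_inv] at h1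
    rw [hB]
    refine le_trans (le_of_eq ?_) h1
    exact Finset.sum_congr rfl fun x _ => hnorm _
  have h2 : HasSum (fun x => ∑ j, ‖⟪R x ξ, T (e j)⟫_ℂ‖ ^ 2) (∑ j, C * ‖T (e j)‖ ^ 2) :=
    hasSum_sum fun j _ => hp (T (e j))
  have h3 : ∑ j, C * ‖T (e j)‖ ^ 2 ≤ B := by
    refine hasSum_le_of_sum_le h2 fun s => ?_
    refine le_trans (Finset.sum_le_sum fun x _ => ?_) (hsum s)
    have h4 := he.sum_inner_products_le (adjoint T (R x ξ)) (s := Finset.univ)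
    refine le_trans (le_of_eq ?_) h4
    refine Finset.sum_congr rfl fun j _ => ?_
    rw [← adjoint_inner_left, norm_inner_symm]
  have h5 : (m : ℝ) * (C * c) ≤ ∑ j, C * ‖T (e j)‖ ^ 2 := by
    calc (m : ℝ) * (C * c) = ∑ _j : Fin m, C * c := by simp
      _ ≤ _ := Finset.sum_le_sum fun j _ => by
        have := heL j
        gcongr
  rw [le_div_iff₀ (by positivity)]
  refine h5.trans (h3.trans ?_)
  rw [hB]
  gcongr

/-- A subspace on which `T` is bounded below is finite dimensional. -/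
theorem finite_of_hs (hU : URep R) (hf : Tig R ξ) {T : E →L[ℂ] E}
    (hTn : adjoint T * T = T * adjoint T)
    {N : Finset X} (hN : ∀ x, x ∉ N → (adjoint T * T) * cj R (adjoint T * T) x = 0)
    {c : ℝ} (hc : 0 < c) (L : Submodule ℂ E) (hL : ∀ v ∈ L, c * ‖v‖ ^ 2 ≤ ‖T v‖ ^ 2) :
    FiniteDimensional ℂ L := by
  obtain ⟨C, hC, hp⟩ := hf
  obtain ⟨n, hn⟩ := exists_nat_gt (((N.card * ‖T‖ ^ 2) * ‖ξ‖ ^ 2) / (C * c))
  refine finite_of_bound L n fun m e he heL => ?_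
  have h7 := exists_bound hU ⟨C, hC, hp⟩ hTn hN hc le_rfl m e he (fun i => by
    have := hL _ (heL i)
    rwa [he.1 i, one_pow, mul_one] at this) hC hp
  exact_mod_cast (h7.trans hn.le)

/-- Uniform bound for the orthonormal families in the range of a projection. -/
theorem proj_bound (hU : URep R) (hf : Tig R ξ) (N : Finset X) :
    ∃ B : ℝ, ∀ T : E →L[ℂ] E, T * T = T → adjoint T = T → (∀ x, x ∉ N → T * cj R T x = 0) →
      ∀ (m : ℕ) (e : Fin m → E), Orthonormal ℂ e → (∀ i, T (e i) = e i) → (m : ℝ) ≤ B := by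
  obtain ⟨C, hC, hp⟩ := hf
  refine ⟨((N.card * 1) * ‖ξ‖ ^ 2) / (C * 1), fun T hT hTa hN m e he hTe => ?_⟩
  have hn : ‖T‖ ≤ 1 := by
    by_contra hlt
    rw [not_le] at hlt
    have h1 : ‖adjoint T * T‖ = ‖T‖ * ‖T‖ := by
      have := CStarRing.norm_star_mul_self (x := T)
      rwa [star_eq_adjoint] at this
    rw [hTa, hT] at h1
    nlinarith
  refine exists_bound hU ⟨C, hC, hp⟩ (T := T) (by rw [hTa]) (N := N) ?_ one_pos
    (by nlinarith [norm_nonneg T]) m e he (fun i => ?_) hC hp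
  · intro x hx
    rw [hTa, hT]
    exact hN x hx
  · rw [hTe, he.1 i, one_pow]

/-- The range of a projection with almost orthogonal translates is finite-dimensional. -/
theorem exists_onb (hU : URep R) (hf : Tig R ξ)
    {F : E →L[ℂ] E} (hF : F * F = F) (hFa : adjoint F = F) {N : Finset X}
    (hFo : ∀ x, x ∉ N → F * (R x * F * R x⁻¹) = 0) :
    ∃ (f : ℕ) (ζ : Fin f → E), Orthonormal ℂ ζ ∧ (∀ i, F (ζ i) = ζ i) ∧
      ∀ v, F v = ∑ i, ⟪ζ i, v⟫_ℂ • ζ i := by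
  classical
  have hFF : ∀ v, F (F v) = F v := fun v => congrArg (fun T : E →L[ℂ] E => T v) hF
  have hFi : ∀ u v, ⟪F u, v⟫_ℂ = ⟪u, F v⟫_ℂ := fun u v => by
    rw [← adjoint_inner_right, hFa]
  obtain ⟨B, hB⟩ := proj_bound hU hf N
  obtain ⟨f, ⟨ζ, h1, h2⟩, hmax⟩ := exists_max (T := B)
    (fun m => ∃ u : Fin m → E, Orthonormal ℂ u ∧ ∀ i, F (u i) = u i)
    ⟨fun i => i.elim0, ⟨fun i => i.elim0, fun i => i.elim0⟩, fun i => i.elim0⟩ (by
      rintro m ⟨u, hu, huF⟩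
      exact hB F hF hFa hFo m u hu huF)
  refine ⟨f, ζ, h1, h2, fun v => ?_⟩
  by_contra hne
  obtain ⟨w, hw⟩ : ∃ w, w = F v - ∑ i, ⟪ζ i, v⟫_ℂ • ζ i := ⟨_, rfl⟩
  have hw0 : w ≠ 0 := by
    rw [hw]; exact sub_ne_zero.mpr hne
  have hwF : F w = w := by
    rw [hw, map_sub, hFF, map_sum]
    congr 1
    refine Finset.sum_congr rfl fun i _ => ?_
    rw [map_smul, h2]
  have hwo : ∀ i, ⟪ζ i, w⟫_ℂ = 0 := by
    intro i
    rw [hw, inner_sub_right, h1.inner_right_fintype, ← hFi, h2, sub_self]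
  have hn : ‖w‖ ≠ 0 := norm_ne_zero_iff.mpr hw0
  refine hmax ⟨Fin.snoc ζ (((‖w‖ : ℝ) : ℂ)⁻¹ • w), orthonormal_snoc h1 ?_ fun i => ?_, fun i => ?_⟩
  · rw [norm_smul, norm_inv, Complex.norm_real, norm_norm, inv_mul_cancel₀ hn]
  · rw [inner_smul_right, hwo, mul_zero]
  · refine Fin.lastCases ?_ (fun i => ?_) i
    · rw [Fin.snoc_last, map_smul, hwF]
    · rw [Fin.snoc_castSucc, h2]

/-- **END-T, core.** -/
theorem end_core (hU : URep R) (hf : Tig R ξ) {N : Finset X}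
    (hV : URep V) (hVR : ∀ g x, V g * R x = R x * V g) {F : E →L[ℂ] E} (hF : F * F = F)
    (hFa : adjoint F = F) (hF0 : F ≠ 0) (hFo : ∀ x, x ∉ N → F * (R x * F * R x⁻¹) = 0)
    (hFc : ∀ g x, (V g * F * V g⁻¹) * (R x * F * R x⁻¹) = (R x * F * R x⁻¹) * (V g * F * V g⁻¹)) :
    ∃ (r : ℕ) (ζ : Fin r → E) (κ : ℝ), 0 < κ ∧ (∀ i, ‖ζ i‖ = 1) ∧
      ∀ g, ∃ i j x, κ ≤ ‖⟪V g (ζ i), R x (ζ j)⟫_ℂ‖ := by
  classical
  obtain ⟨f, z, hz1, hz2, hz3⟩ := exists_onb hU hf hF hFa hFo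
  obtain ⟨w, hw1, hFw⟩ := exists_unit hF hF0
  obtain ⟨G, hG⟩ : ∃ G : Γ → (E →L[ℂ] E), G = fun g => V g * F * V g⁻¹ := ⟨_, rfl⟩
  have hGi : ∀ g, G g * G g = G g := fun g => by
    rw [hG]
    simp only
    rw [← conj_mul hV, hF]
  have hGa : ∀ g, adjoint (G g) = G g := fun g => by
    rw [hG]
    simp only
    rw [← star_eq_adjoint, star_mul, star_mul, star_eq_adjoint, star_eq_adjoint, star_eq_adjoint,
      hV.adj, hV.adj, inv_inv, hFa, mul_assoc]
  have hinv : ∀ x : X, R x⁻¹ * R x = 1 := fun x => by rw [← hU.mul, inv_mul_cancel, hU.one]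
  have hinv' : ∀ x : X, R x * R x⁻¹ = 1 := fun x => by rw [← hU.mul, mul_inv_cancel, hU.one]
  have hcomm : ∀ g x, R x * G g * R x⁻¹ = V g * (R x * F * R x⁻¹) * V g⁻¹ := by
    intro g x
    rw [hG]
    simp only
    calc R x * (V g * F * V g⁻¹) * R x⁻¹ = (R x * V g) * F * (V g⁻¹ * R x⁻¹) := by
          simp only [mul_assoc]
      _ = (V g * R x) * F * (R x⁻¹ * V g⁻¹) := by rw [hVR, hVR]
      _ = _ := by simp only [mul_assoc]
  have hGc : ∀ g h x, G g * (R x * G h * R x⁻¹) = (R x * G h * R x⁻¹) * G g := by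
    intro g h x
    have e1 : G g = V h * G (h⁻¹ * g) * V h⁻¹ := by
      rw [hG]
      simp only
      rw [mul_inv_rev, inv_inv, hV.mul, hV.mul]
      have e2 : V h * V h⁻¹ = 1 := by rw [← hV.mul, mul_inv_cancel, hV.one]
      calc V g * F * V g⁻¹ = (V h * V h⁻¹) * V g * F * V g⁻¹ * (V h * V h⁻¹) := by
            rw [e2, one_mul, mul_one]
        _ = _ := by simp only [mul_assoc]
    rw [hcomm, e1, ← conj_mul hV, ← conj_mul hV]
    congr 2
    rw [hG]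
    exact hFc _ _
  have hadjR : ∀ x (A : E →L[ℂ] E), adjoint (R x * A * R x⁻¹) = R x * adjoint A * R x⁻¹ := by
    intro x A
    rw [← star_eq_adjoint, star_mul, star_mul, star_eq_adjoint, star_eq_adjoint, star_eq_adjoint,
      hU.adj, hU.adj, inv_inv, mul_assoc]
  have hGw : ∀ g, G g (V g w) = V g w := fun g => by
    rw [hG]
    change V g (F (V g⁻¹ (V g w))) = _
    rw [hV.inv_apply, hFw]
  obtain ⟨B, hB⟩ := proj_bound hU hf N
  obtain ⟨m, ⟨s, hs⟩, hmax⟩ := exists_max (T := B)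
    (fun m => ∃ s : Fin m → Γ, ∀ i j x, (i ≠ j ∨ x ∉ N) → G (s i) * (R x * G (s j) * R x⁻¹) = 0)
    ⟨fun i => i.elim0, fun i => i.elim0⟩ (by
      rintro m ⟨s, hs⟩
      have hor : ∀ i j, i ≠ j → G (s i) * G (s j) = 0 := by
        intro i j hij
        have h1 := hs i j 1 (Or.inl hij)
        rwa [inv_one, hU.one, one_mul, mul_one] at h1
      refine hB (∑ i, G (s i)) ?_ ?_ ?_ m (fun i => V (s i) w) ⟨fun i => ?_, fun i j hij => ?_⟩
        fun i => ?_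
      · rw [Finset.sum_mul_sum]
        refine Finset.sum_congr rfl fun i _ => ?_
        rw [Finset.sum_eq_single i (fun j _ hj => hor i j (Ne.symm hj))
          (fun h => absurd (Finset.mem_univ i) h), hGi]
      · rw [map_sum]
        exact Finset.sum_congr rfl fun i _ => hGa _
      · intro x hx
        unfold cj
        have e : R x * (∑ i, G (s i)) * R x⁻¹ = ∑ i, R x * G (s i) * R x⁻¹ := by
          rw [Finset.mul_sum, Finset.sum_mul]
        rw [e, Finset.sum_mul_sum]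
        refine Finset.sum_eq_zero fun i _ => Finset.sum_eq_zero fun j _ => ?_
        exact hs i j x (Or.inr hx)
      · simp only
        rw [hV.norm_map, hw1]
      · simp only
        rw [← hGw (s i), ← hGw (s j), ← adjoint_inner_right, hGa]
        have h1 := congrArg (fun S : E →L[ℂ] E => S (V (s j) w)) (hor i j hij)
        change G (s i) (G (s j) (V (s j) w)) = 0 at h1
        rw [h1, inner_zero_right]
      · rw [ContinuousLinearMap.sum_apply, Finset.sum_eq_single i, hGw]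
        · intro j _ hj
          have h1 := congrArg (fun S : E →L[ℂ] E => S (V (s i) w)) (hor j i hj)
          change G (s j) (G (s i) (V (s i) w)) = 0 at h1
          rwa [hGw] at h1
        · exact fun h => absurd (Finset.mem_univ i) h)
  have hex : ∀ g, ∃ i x, G g * (R x * G (s i) * R x⁻¹) ≠ 0 := by
    intro g
    by_contra hn
    push Not at hn
    refine hmax ⟨Fin.snoc s g, fun i j x => ?_⟩
    refine Fin.lastCases ?_ (fun i => ?_) i
    · refine Fin.lastCases ?_ (fun j => ?_) j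
      · intro h1
        have hx : x ∉ N := by
          rcases h1 with h1 | h1
          · exact absurd rfl h1
          · exact h1
        rw [Fin.snoc_last, hcomm]
        have e1 : G g = V g * F * V g⁻¹ := by rw [hG]
        rw [e1, ← conj_mul hV, hFo x hx, mul_zero, zero_mul]
      · intro _
        rw [Fin.snoc_last, Fin.snoc_castSucc]
        exact hn j x
    · refine Fin.lastCases ?_ (fun j => ?_) j
      · intro _
        rw [Fin.snoc_last, Fin.snoc_castSucc]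
        have e1 := congrArg adjoint (hn i x⁻¹)
        rw [map_zero, ← star_eq_adjoint, star_mul, star_eq_adjoint, star_eq_adjoint, hGa, hadjR,
          hGa, inv_inv] at e1
        calc G (s i) * (R x * G g * R x⁻¹)
            = (R x * R x⁻¹) * G (s i) * (R x * G g * R x⁻¹) := by rw [hinv', one_mul]
          _ = R x * (R x⁻¹ * G (s i) * R x * G g) * R x⁻¹ := by simp only [mul_assoc]
          _ = 0 := by rw [e1, mul_zero, zero_mul]
      · intro hij
        rw [Fin.snoc_castSucc, Fin.snoc_castSucc]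
        refine hs i j x ?_
        rcases hij with h1 | h1
        · exact Or.inl fun h2 => h1 (by rw [h2])
        · exact Or.inr h1
  -- the vectors
  obtain ⟨e⟩ : Nonempty (Fin f ⊕ (Fin m × Fin f) ≃ Fin (f + m * f)) :=
    ⟨((Equiv.refl _).sumCongr finProdFinEquiv).trans finSumFinEquiv⟩
  obtain ⟨Z, hZ⟩ : ∃ Z : Fin f ⊕ (Fin m × Fin f) → E,
      Z = Sum.elim z (fun p => V (s p.1) (z p.2)) := ⟨_, rfl⟩
  have hf0 : f ≠ 0 := by
    rintro rfl
    have := hz3 w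
    rw [hFw] at this
    simp only [Finset.univ_eq_empty, Finset.sum_empty] at this
    rw [this, norm_zero] at hw1
    exact zero_ne_one hw1
  have hfp : 0 < (f : ℝ) := by positivity
  refine ⟨f + m * f, fun i => Z (e.symm i), 1 / (2 * (f : ℝ)), by positivity, fun i => ?_,
    fun g => ?_⟩
  · simp only
    rcases e.symm i with i | p
    · rw [hZ]; exact hz1.1 i
    · rw [hZ]
      change ‖V (s p.1) (z p.2)‖ = 1
      rw [hV.norm_map, hz1.1]
  · obtain ⟨i, x, hix⟩ := hex g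
    obtain ⟨a, b, hab⟩ := overlap (f := f) (A := G g) (B := R x * G (s i) * R x⁻¹)
      (a := fun a => V g (z a)) (b := fun b => R x (V (s i) (z b)))
      (ha := ⟨fun a => by simp only; rw [hV.norm_map, hz1.1], fun a b hab => by
        simp only; rw [hV.inner_map]; exact hz1.2 hab⟩)
      (hb := ⟨fun a => by simp only; rw [hU.norm_map, hV.norm_map, hz1.1], fun a b hab => by
        simp only; rw [hU.inner_map, hV.inner_map]; exact hz1.2 hab⟩)
      (hA := hGi g) (hB := by rw [← conj_mul hU, hGi]) (hAB := hGc g (s i) x)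
      (hA' := fun v => by
        have e1 : G g v = V g (F (V g⁻¹ v)) := by rw [hG]; rfl
        rw [e1, hz3, map_sum]
        refine Finset.sum_congr rfl fun a _ => ?_
        rw [map_smul, hV.inner_left])
      (hB' := fun v => by
        have e1 : (R x * G (s i) * R x⁻¹) v = R x (V (s i) (F (V (s i)⁻¹ (R x⁻¹ v)))) := by
          rw [hG]; rfl
        rw [e1, hz3, map_sum, map_sum]
        refine Finset.sum_congr rfl fun a _ => ?_
        rw [map_smul, map_smul, hU.inner_left, hV.inner_left])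
      (h := hix)
    refine ⟨e (Sum.inl a), e (Sum.inr (i, b)), x, ?_⟩
    simp only [Equiv.symm_apply_apply]
    rw [hZ]
    exact hab

/-- Existence of a joint eigenvector from an almost orthogonal element of the bicommutant. -/
theorem exists_JE (hU : URep R) (hfr : Tig R ξ) {𝒮 : Set (E →L[ℂ] E)} (h𝒮 : CFam 𝒮)
    (hR : ∀ x, ∀ S ∈ 𝒮, R x * S * R x⁻¹ ∈ 𝒮) {T : E →L[ℂ] E} (hT : Bi 𝒮 T) (hT0 : T ≠ 0)
    (hN : {x | T * cj R T x ≠ 0}.Finite) : ∃ w, JE 𝒮 w := by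
  classical
  have hTa := hT.adj h𝒮
  have hf : Bi 𝒮 (adjoint T * T) := hTa.mul hT
  have hbc : ∀ {S : E →L[ℂ] E}, Bi 𝒮 S → ∀ x, Bi 𝒮 (cj R S x) := by
    intro S hS x
    exact hS.conj (R_mul_inv hU x) (R_inv_mul hU x) (hR x)
  have hN' : ∀ x, x ∉ hN.toFinset → (adjoint T * T) * cj R (adjoint T * T) x = 0 := by
    intro x hx
    have h1 : T * cj R T x = 0 := by
      by_contra h0
      exact hx (by simpa using h0)
    rw [← cj_mul_cj hU]
    have h2 : T * cj R (adjoint T) x = cj R (adjoint T) x * T := Bi.comm h𝒮 hT (hbc hTa x)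
    calc adjoint T * T * (cj R (adjoint T) x * cj R T x)
        = adjoint T * (T * cj R (adjoint T) x) * cj R T x := by simp only [mul_assoc]
      _ = adjoint T * cj R (adjoint T) x * (T * cj R T x) := by rw [h2]; simp only [mul_assoc]
      _ = 0 := by rw [h1, mul_zero]
  obtain ⟨v, hv⟩ : ∃ v, T v ≠ 0 := by
    by_contra hn
    push Not at hn
    exact hT0 (by ext v; exact hn v)
  have hv0 : v ≠ 0 := fun h0 => hv (by rw [h0, map_zero])
  have hvn : 0 < ‖v‖ ^ 2 := by positivity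
  have hTv : 0 < ‖T v‖ ^ 2 := by positivity
  obtain ⟨c, hc⟩ : ∃ c, c = ‖T v‖ ^ 2 / (2 * ‖v‖ ^ 2) := ⟨_, rfl⟩
  have hc0 : 0 < c := by rw [hc]; positivity
  have hcv : c * ‖v‖ ^ 2 < ‖T v‖ ^ 2 := by
    rw [hc]
    field_simp
    linarith
  obtain ⟨C, hC⟩ : ∃ C : E →L[ℂ] E, C = adjoint T * T - (c : ℂ) • 1 := ⟨_, rfl⟩
  have hCa : adjoint C = C := by
    rw [hC, map_sub, adj_mul, adjoint_adjoint, LinearIsometryEquiv.map_smulₛₗ]
    simp [← star_eq_adjoint]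
  obtain ⟨P, N, hJ⟩ := exists_jor C hCa
  have hCB : Bi 𝒮 C := by
    rw [hC]; exact hf.sub (Bi.one.smul _)
  have hNB : Bi 𝒮 N := fun D hD => (hJ.comm D (hCB D hD)).2
  have hPB : Bi 𝒮 P := fun D hD => (hJ.comm D (hCB D hD)).1
  have hqC : ∀ u, qf C u = ‖T u‖ ^ 2 - c * ‖u‖ ^ 2 := by
    intro u
    rw [hC, qf_sub, qf_adj_mul, qf_smul, qf_one]
  -- the invariant subspace
  obtain ⟨L, hL⟩ : ∃ L : Submodule ℂ E, L = LinearMap.ker (N : E →ₗ[ℂ] E) := ⟨_, rfl⟩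
  have hLm : ∀ u, u ∈ L ↔ N u = 0 := by
    intro u; rw [hL]; simp [LinearMap.mem_ker]
  have hLT : ∀ u ∈ L, c * ‖u‖ ^ 2 ≤ ‖T u‖ ^ 2 := by
    intro u hu
    have h1 : qf C u = qf P u := by
      rw [hJ.eq, qf_sub]
      have : qf N u = 0 := by simp [qf, (hLm u).mp hu]
      rw [this, sub_zero]
    have h2 := hJ.pp u
    have h3 := hqC u
    linarith
  have hPv : P v ≠ 0 := by
    intro h0
    have h1 : qf C v = - qf N v := by
      rw [hJ.eq, qf_sub]
      have : qf P v = 0 := by simp [qf, h0]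
      rw [this, zero_sub]
    have h2 := hJ.nn v
    have h3 := hqC v
    linarith
  have hLne : L ≠ ⊥ := by
    intro hb
    have : P v ∈ L := by
      rw [hLm]
      have := congrArg (fun S : E →L[ℂ] E => S v) hJ.np
      simpa using this
    rw [hb] at this
    exact hPv ((Submodule.mem_bot ℂ).mp this)
  have hLinv : ∀ S ∈ 𝒮, ∀ u ∈ L, S u ∈ L := by
    intro S hS u hu
    rw [hLm] at hu ⊢
    have h1 : S * N = N * S := hNB S fun S' hS' => h𝒮.comm _ hS _ hS'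
    have := congrArg (fun S : E →L[ℂ] E => S u) h1
    simp only [ContinuousLinearMap.mul_apply] at this
    rw [← this, hu, map_zero]
  have hfd : FiniteDimensional ℂ L :=
    finite_of_hs hU hfr (Bi.comm h𝒮 hTa hT) hN' hc0 L hLT
  obtain ⟨w, _, hw0, hw⟩ := exists_joint h𝒮.comm _ L hfd le_rfl hLne hLinv
  exact ⟨w, hw0, hw⟩

/-- **Q-END, core.** -/
theorem core (hU : URep R) (hfr : Tig R ξ) (hV : URep V)
    (hVR : ∀ g x, V g * R x = R x * V g) {𝒮 : Set (E →L[ℂ] E)} (h𝒮 : CFam 𝒮)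
    (hR : ∀ x, ∀ S ∈ 𝒮, R x * S * R x⁻¹ ∈ 𝒮) (hVS : ∀ g, ∀ S ∈ 𝒮, V g * S * V g⁻¹ ∈ 𝒮)
    {N : Finset X} (hfree : ∀ w, JE 𝒮 w → ∀ x, R x w ∈ eig 𝒮 w → x ∈ N)
    {T : E →L[ℂ] E} (hT : Bi 𝒮 T) (hT0 : T ≠ 0) (hN : {x | T * cj R T x ≠ 0}.Finite) :
    ∃ (r : ℕ) (ζ : Fin r → E) (κ : ℝ), 0 < κ ∧ (∀ i, ‖ζ i‖ = 1) ∧
      ∀ g, ∃ i j x, κ ≤ ‖⟪V g (ζ i), R x (ζ j)⟫_ℂ‖ := by
  obtain ⟨w₀, hw₀⟩ := exists_JE hU hfr h𝒮 hR hT hT0 hN
  have hR1 := R_mul_inv (R := R) hU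
  have hR2 := R_inv_mul (R := R) hU
  have hV1 := R_mul_inv (R := V) hV
  have hV2 := R_inv_mul (R := V) hV
  have hR' : ∀ x, ∀ S ∈ 𝒮, R x⁻¹ * S * R x ∈ 𝒮 := fun x S hS => by
    have := hR x⁻¹ S hS
    rwa [inv_inv] at this
  have hV' : ∀ x, ∀ S ∈ 𝒮, V x⁻¹ * S * V x ∈ 𝒮 := fun x S hS => by
    have := hVS x⁻¹ S hS
    rwa [inv_inv] at this
  have hRw : ∀ x, JE 𝒮 (R x w₀) := fun x => hw₀.map (hR1 x) (hR2 x) (hR' x)
  have hVw : ∀ g, JE 𝒮 (V g w₀) := fun g => hw₀.map (hV1 g) (hV2 g) (hV' g)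
  have hRp : ∀ x, R x * pr 𝒮 w₀ * R x⁻¹ = pr 𝒮 (R x w₀) := fun x =>
    pr_conj (hR1 x) (hR2 x) (hU.adj x) (hR x) (hR' x) w₀
  have hVp : ∀ g, V g * pr 𝒮 w₀ * V g⁻¹ = pr 𝒮 (V g w₀) := fun g =>
    pr_conj (hV1 g) (hV2 g) (hV.adj g) (hVS g) (hV' g) w₀
  refine end_core hU hfr (N := N) hV hVR (F := pr 𝒮 w₀) (pr_mul_self _ _)
    (adj_pr _ _)
    (by
      intro h0
      have := pr_self 𝒮 w₀
      rw [h0] at this
      exact hw₀.1 (by simpa using this.symm))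
    (by
      intro x hx
      rw [hRp]
      exact pr_mul_pr_zero h𝒮 hw₀ (hRw x) fun hm => hx (hfree w₀ hw₀ x hm))
    (by
      intro g x
      rw [hRp, hVp]
      exact pr_comm h𝒮 (hVw g) (hRw x))

/-- An element of the bicommutant with few overlapping translates. -/
theorem exists_T (hU : URep R) (hξ : ξ ≠ 0) {𝒮 : Set (E →L[ℂ] E)} (h𝒮 : CFam 𝒮)
    (hR : ∀ x, ∀ S ∈ 𝒮, R x * S * R x⁻¹ ∈ 𝒮) {I : Type*} [Finite I] {𝒦 : I → Set (Set X)}
    (hN : ∀ i, Nd R 𝒮 (𝒦 i))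
    (hfin : ∀ C : I → Set X, (∀ i, C i ∈ 𝒦 i) → {x | ∀ i, x ∈ C i}.Finite) :
    ∃ T : E →L[ℂ] E, Bi 𝒮 T ∧ T ≠ 0 ∧ {x | T * cj R T x ≠ 0}.Finite := by
  classical
  have hbc : ∀ {S : E →L[ℂ] E}, Bi 𝒮 S → ∀ x, Bi 𝒮 (cj R S x) := by
    intro S hS x
    exact hS.conj (R_mul_inv hU x) (R_inv_mul hU x) (hR x)
  have key : ∀ s : Finset I, ∃ T : E →L[ℂ] E, Bi 𝒮 T ∧ T ξ ≠ 0 ∧
      ∀ i ∈ s, ∃ C ∈ 𝒦 i, ∀ x, x ∉ C → T * cj R T x = 0 := by
    intro s
    induction s using Finset.induction_on with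
    | empty =>
      exact ⟨1, Bi.one, by simpa using hξ, by simp⟩
    | insert j s hj ih =>
      obtain ⟨T, hT, hTξ, hTs⟩ := ih
      obtain ⟨T', hT', hT'0, C', hC', hC'x⟩ := hN j (T ξ) hTξ
      have hcc : ∀ x, (T' * T) * cj R (T' * T) x = (T' * cj R T' x) * (T * cj R T x) := by
        intro x
        rw [← cj_mul_cj hU]
        calc T' * T * (cj R T' x * cj R T x) = T' * (T * cj R T' x) * cj R T x := by
              simp only [mul_assoc]
          _ = T' * (cj R T' x * T) * cj R T x := by rw [Bi.comm h𝒮 hT (hbc hT' x)]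
          _ = _ := by simp only [mul_assoc]
      refine ⟨T' * T, hT'.mul hT, by simpa using hT'0, ?_⟩
      intro i hi
      rcases Finset.mem_insert.mp hi with rfl | hi
      · exact ⟨C', hC', fun x hx => by rw [hcc, hC'x x hx, zero_mul]⟩
      · obtain ⟨C, hC, hCx⟩ := hTs i hi
        exact ⟨C, hC, fun x hx => by rw [hcc, hCx x hx, mul_zero]⟩
  cases nonempty_fintype I
  obtain ⟨T, hT, hTξ, hTs⟩ := key Finset.univ
  choose C hC hCx using fun i => hTs i (Finset.mem_univ i)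
  refine ⟨T, hT, fun h0 => hTξ (by rw [h0]; rfl), (hfin C hC).subset ?_⟩
  intro x hx i
  by_contra hxi
  exact hx (hCx i x hxi)

/-- **Q-END, any finite family of places.** -/
theorem q_end (hU : URep R) (hξ : ξ ≠ 0) (hfr : Tig R ξ) (hV : URep V) (hVR : ∀ g x, V g * R x = R x * V g)
    {I : Type*} [Finite I] {G : I → Type*} [∀ i, Group (G i)] [∀ i, TopologicalSpace (G i)]
    [∀ i, MeasurableSpace (G i)] [∀ i, IsTopologicalGroup (G i)] [∀ i, LocallyCompactSpace (G i)]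
    [∀ i, T2Space (G i)] [∀ i, SigmaCompactSpace (G i)] [∀ i, BorelSpace (G i)]
    (ι : ∀ i, X →* G i) (μ : ∀ i, Measure (G i)) [∀ i, (μ i).IsHaarMeasure]
    (𝒜 : ∀ i, Set (G i → (E →L[ℂ] E))) (hP : ∀ i, Pla R V (ι i) (μ i) (𝒜 i))
    (hcomm : ∀ i j, ∀ a ∈ 𝒜 i, ∀ b ∈ 𝒜 j, ∀ x y, a x * b y = b y * a x)
    (hfree : ∀ i, Free (𝒜 i))
    (hfin : ∀ C : ∀ i, Set (G i), (∀ i, IsCompact (C i)) → {x | ∀ i, ι i x ∈ C i}.Finite) :
    ∃ (r : ℕ) (ζ : Fin r → E) (κ : ℝ), 0 < κ ∧ (∀ i, ‖ζ i‖ = 1) ∧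
      ∀ g, ∃ i j x, κ ≤ ‖⟪V g (ζ i), R x (ζ j)⟫_ℂ‖ := by
  obtain ⟨𝒮, h𝒮⟩ : ∃ 𝒮 : Set (E →L[ℂ] E), 𝒮 = ⋃ i, vals (𝒜 i) := ⟨_, rfl⟩
  have hm : ∀ S, S ∈ 𝒮 ↔ ∃ i, S ∈ vals (𝒜 i) := fun S => by rw [h𝒮, Set.mem_iUnion]
  have hsub : ∀ i, vals (𝒜 i) ⊆ 𝒮 := fun i S hS => (hm S).mpr ⟨i, hS⟩
  have hC : CFam 𝒮 := by
    constructor
    · intro S hS S' hS'
      obtain ⟨i, a, ha, x, rfl⟩ := (hm S).mp hS
      obtain ⟨j, b, hb, y, rfl⟩ := (hm S').mp hS'
      exact hcomm i j a ha b hb x y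
    · intro S hS
      obtain ⟨i, hi⟩ := (hm S).mp hS
      exact hsub i ((hP i).vals_adj S hi)
  have hR : ∀ x, ∀ S ∈ 𝒮, R x * S * R x⁻¹ ∈ 𝒮 := by
    intro x S hS
    obtain ⟨i, hi⟩ := (hm S).mp hS
    exact hsub i ((hP i).vals_R x S hi)
  have hVS : ∀ g, ∀ S ∈ 𝒮, V g * S * V g⁻¹ ∈ 𝒮 := by
    intro g S hS
    obtain ⟨i, hi⟩ := (hm S).mp hS
    exact hsub i ((hP i).vals_V g S hi)
  obtain ⟨T, hT, hT0, hTf⟩ := exists_T hU hξ hC hR
    (𝒦 := fun i => {C | ∃ K : Set (G i), IsCompact K ∧ C = ι i ⁻¹' K})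
    (fun i => (hP i).nd hU hC hR (hsub i))
    (by
      intro C hCi
      choose K hK hKC using hCi
      refine (hfin K hK).subset fun x hx i => ?_
      have := hx i
      rw [hKC i] at this
      exact this)
  have hK : {x : X | ∀ i, ι i x ∈ ({1} : Set (G i))}.Finite := hfin _ fun i => isCompact_singleton
  exact core hU hfr hV hVR hC hR hVS (N := hK.toFinset)
    (fun w hw x hx => by
      rw [Set.Finite.mem_toFinset]
      exact fun i => (hP i).free_use hU (hfree i) (hsub i) hw hx)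
    hT hT0 hTf

end Vale.Agent.P092.QT.EndT
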