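import Vale.Agent.P092.H494.QEnd

/-!
P092, project Q for all `t` (helper157): the end.  Version of helper494's `q_end` for a representation
with a tight frame and a finite set of elements with trivial place coordinates: the conclusion is a
uniform overlap.
-/

set_option linter.all false

open scoped InnerProductSpace
open Filter Topology ContinuousLinearMap MeasureTheory

namespace Vale.Agent.P092.QT

open Vale.Agent.P092.H828 Vale.Agent.P092.H494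

variable {E : Type*} [NormedAddCommGroup E] [InnerProductSpace ℂ E] [CompleteSpace E]
variable {X Γ : Type*} [Group X] [Group Γ] {R : X → (E →L[ℂ] E)} {V : Γ → (E →L[ℂ] E)} {ξ : E}
  {C : ℝ}

/-- A unitary representation with a vector which generates a tight frame. -/
structure FReg (R : X → (E →L[ℂ] E)) (ξ : E) (C : ℝ) : Prop extends URep R where
  pos : 0 < C
  ne : ξ ≠ 0
  frame : ∀ v : E, HasSum (fun x => ‖⟪R x ξ, v⟫_ℂ‖ ^ 2) (C * ‖v‖ ^ 2)

/-- A subspace on which `T` is bounded below is finite dimensional. -/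
theorem finite_of_hs (h : FReg R ξ C) {T : E →L[ℂ] E} (hTn : adjoint T * T = T * adjoint T)
    {N : Finset X} (hN : ∀ x, x ∉ N → (adjoint T * T) * cj R (adjoint T * T) x = 0)
    {c : ℝ} (hc : 0 < c) (L : Submodule ℂ E) (hL : ∀ v ∈ L, c * ‖v‖ ^ 2 ≤ ‖T v‖ ^ 2) :
    FiniteDimensional ℂ L := by
  classical
  obtain ⟨B, hB⟩ : ∃ B : ℝ, B = (N.card * ‖T‖ ^ 2) * ‖ξ‖ ^ 2 := ⟨_, rfl⟩
  have hC := h.pos
  have hnorm : ∀ v, ‖adjoint T v‖ ^ 2 = ‖T v‖ ^ 2 := by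
    intro v
    rw [← qf_adj_mul T v, ← qf_adj_mul (adjoint T) v, adjoint_adjoint, hTn]
  have hsum : ∀ s : Finset X, ∑ x ∈ s, ‖adjoint T (R x ξ)‖ ^ 2 ≤ B := by
    intro s
    have h1 := almost_orth h.toURep hN (s.image fun x => x⁻¹) ξ
    rw [Finset.sum_image (fun a _ b _ hab => inv_injective hab)] at h1
    simp only [inv_inv] at h1
    rw [hB]
    refine le_trans (le_of_eq ?_) h1
    exact Finset.sum_congr rfl fun x _ => hnorm _
  obtain ⟨n, hn⟩ := exists_nat_gt (B / (C * c))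
  refine finite_of_bound L n fun m e he heL => ?_
  have h1 : ∀ j, HasSum (fun x => ‖⟪R x ξ, T (e j)⟫_ℂ‖ ^ 2) (C * ‖T (e j)‖ ^ 2) :=
    fun j => h.frame _
  have h2 : HasSum (fun x => ∑ j, ‖⟪R x ξ, T (e j)⟫_ℂ‖ ^ 2) (∑ j, C * ‖T (e j)‖ ^ 2) :=
    hasSum_sum fun j _ => h1 j
  have h3 : ∑ j, C * ‖T (e j)‖ ^ 2 ≤ B := by
    refine hasSum_le_of_sum_le h2 fun s => ?_
    refine le_trans (Finset.sum_le_sum fun x _ => ?_) (hsum s)
    have h4 := he.sum_inner_products_le (adjoint T (R x ξ)) (s := Finset.univ)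
    refine le_trans (le_of_eq ?_) h4
    refine Finset.sum_congr rfl fun j _ => ?_
    rw [← adjoint_inner_left, norm_inner_symm]
  have h5 : (m : ℝ) * (C * c) ≤ ∑ j, C * ‖T (e j)‖ ^ 2 := by
    have h6 : ∀ j : Fin m, C * c ≤ C * ‖T (e j)‖ ^ 2 := by
      intro j
      have := hL _ (heL j)
      rw [he.1 j, one_pow, mul_one] at this
      exact mul_le_mul_of_nonneg_left this hC.le
    calc (m : ℝ) * (C * c) = ∑ _j : Fin m, C * c := by simp
      _ ≤ _ := Finset.sum_le_sum fun j _ => h6 j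
  have h7 : (m : ℝ) ≤ B / (C * c) := by
    rw [le_div_iff₀ (by positivity)]
    exact h5.trans h3
  exact_mod_cast (h7.trans hn.le)

/-- Existence of a joint eigenvector from an almost orthogonal element of the bicommutant. -/
theorem exists_JE (h : FReg R ξ C) {𝒮 : Set (E →L[ℂ] E)} (h𝒮 : CFam 𝒮)
    (hR : ∀ x, ∀ S ∈ 𝒮, R x * S * R x⁻¹ ∈ 𝒮) {T : E →L[ℂ] E} (hT : Bi 𝒮 T) (hT0 : T ≠ 0)
    (hN : {x | T * cj R T x ≠ 0}.Finite) : ∃ w, JE 𝒮 w := by
  classical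
  have hTa := hT.adj h𝒮
  have hf : Bi 𝒮 (adjoint T * T) := hTa.mul hT
  have hbc : ∀ {S : E →L[ℂ] E}, Bi 𝒮 S → ∀ x, Bi 𝒮 (cj R S x) := by
    intro S hS x
    exact hS.conj (R_mul_inv h.toURep x) (R_inv_mul h.toURep x) (hR x)
  have hN' : ∀ x, x ∉ hN.toFinset → (adjoint T * T) * cj R (adjoint T * T) x = 0 := by
    intro x hx
    have h1 : T * cj R T x = 0 := by
      by_contra h0
      exact hx (by simpa using h0)
    rw [← cj_mul_cj h.toURep]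
    have h2 : T * cj R (adjoint T) x = cj R (adjoint T) x * T := Bi.comm h𝒮 hT (hbc hTa x)
    calc adjoint T * T * (cj R (adjoint T) x * cj R T x)
        = adjoint T * (T * cj R (adjoint T) x) * cj R T x := by simp only [mul_assoc]
      _ = adjoint T * cj R (adjoint T) x * (T * cj R T x) := by rw [h2]; simp only [mul_assoc]
      _ = 0 := by rw [h1, mul_zero]
  obtain ⟨v, hv⟩ : ∃ v, T v ≠ 0 := by
    by_contra hn
    push Not at hn
    exact hT0 (by ext v; exact hn v)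
  have hv0 : v ≠ 0 := fun h0 => hv (by rw [h0, map_zero])
  have hvn : 0 < ‖v‖ ^ 2 := by positivity
  have hTv : 0 < ‖T v‖ ^ 2 := by positivity
  obtain ⟨c, hc⟩ : ∃ c, c = ‖T v‖ ^ 2 / (2 * ‖v‖ ^ 2) := ⟨_, rfl⟩
  have hc0 : 0 < c := by rw [hc]; positivity
  have hcv : c * ‖v‖ ^ 2 < ‖T v‖ ^ 2 := by
    rw [hc]
    field_simp
    linarith
  obtain ⟨D, hD⟩ : ∃ D : E →L[ℂ] E, D = adjoint T * T - (c : ℂ) • 1 := ⟨_, rfl⟩
  have hDa : adjoint D = D := by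
    rw [hD, map_sub, adj_mul, adjoint_adjoint, LinearIsometryEquiv.map_smulₛₗ]
    simp [← star_eq_adjoint]
  obtain ⟨P, N, hJ⟩ := exists_jor D hDa
  have hDB : Bi 𝒮 D := by
    rw [hD]; exact hf.sub (Bi.one.smul _)
  have hNB : Bi 𝒮 N := fun D' hD' => (hJ.comm D' (hDB D' hD')).2
  have hPB : Bi 𝒮 P := fun D' hD' => (hJ.comm D' (hDB D' hD')).1
  have hqD : ∀ u, qf D u = ‖T u‖ ^ 2 - c * ‖u‖ ^ 2 := by
    intro u
    rw [hD, qf_sub, qf_adj_mul, qf_smul, qf_one]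
  -- the invariant subspace
  obtain ⟨L, hL⟩ : ∃ L : Submodule ℂ E, L = LinearMap.ker (N : E →ₗ[ℂ] E) := ⟨_, rfl⟩
  have hLm : ∀ u, u ∈ L ↔ N u = 0 := by
    intro u; rw [hL]; simp [LinearMap.mem_ker]
  have hLT : ∀ u ∈ L, c * ‖u‖ ^ 2 ≤ ‖T u‖ ^ 2 := by
    intro u hu
    have h1 : qf D u = qf P u := by
      rw [hJ.eq, qf_sub]
      have : qf N u = 0 := by simp [qf, (hLm u).mp hu]
      rw [this, sub_zero]
    have h2 := hJ.pp u
    have h3 := hqD u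
    linarith
  have hPv : P v ≠ 0 := by
    intro h0
    have h1 : qf D v = - qf N v := by
      rw [hJ.eq, qf_sub]
      have : qf P v = 0 := by simp [qf, h0]
      rw [this, zero_sub]
    have h2 := hJ.nn v
    have h3 := hqD v
    linarith
  have hLne : L ≠ ⊥ := by
    intro hb
    have : P v ∈ L := by
      rw [hLm]
      have := congrArg (fun S : E →L[ℂ] E => S v) hJ.np
      simpa using this
    rw [hb] at this
    exact hPv ((Submodule.mem_bot ℂ).mp this)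
  have hLinv : ∀ S ∈ 𝒮, ∀ u ∈ L, S u ∈ L := by
    intro S hS u hu
    rw [hLm] at hu ⊢
    have h1 : S * N = N * S := hNB S fun S' hS' => h𝒮.comm _ hS _ hS'
    have := congrArg (fun S : E →L[ℂ] E => S u) h1
    simp only [ContinuousLinearMap.mul_apply] at this
    rw [← this, hu, map_zero]
  have hfd : FiniteDimensional ℂ L :=
    finite_of_hs h (Bi.comm h𝒮 hTa hT) hN' hc0 L hLT
  obtain ⟨w, _, hw0, hw⟩ := exists_joint h𝒮.comm _ L hfd le_rfl hLne hLinv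
  exact ⟨w, hw0, hw⟩

/-- The product of the localisations at the places. -/
theorem exists_T (h : FReg R ξ C) {𝒮 : Set (E →L[ℂ] E)} (h𝒮 : CFam 𝒮)
    (hR : ∀ x, ∀ S ∈ 𝒮, R x * S * R x⁻¹ ∈ 𝒮) {I : Type*} [Finite I] {𝒦 : I → Set (Set X)}
    (hN : ∀ i, Nd R 𝒮 (𝒦 i))
    (hfin : ∀ D : I → Set X, (∀ i, D i ∈ 𝒦 i) → {x | ∀ i, x ∈ D i}.Finite) :
    ∃ T : E →L[ℂ] E, Bi 𝒮 T ∧ T ≠ 0 ∧ {x | T * cj R T x ≠ 0}.Finite := by
  classical
  have hbc : ∀ {S : E →L[ℂ] E}, Bi 𝒮 S → ∀ x, Bi 𝒮 (cj R S x) := by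
    intro S hS x
    exact hS.conj (R_mul_inv h.toURep x) (R_inv_mul h.toURep x) (hR x)
  have hξ : ξ ≠ 0 := h.ne
  have key : ∀ s : Finset I, ∃ T : E →L[ℂ] E, Bi 𝒮 T ∧ T ξ ≠ 0 ∧
      ∀ i ∈ s, ∃ D ∈ 𝒦 i, ∀ x, x ∉ D → T * cj R T x = 0 := by
    intro s
    induction s using Finset.induction_on with
    | empty =>
      exact ⟨1, Bi.one, by simpa using hξ, by simp⟩
    | insert j s hj ih =>
      obtain ⟨T, hT, hTξ, hTs⟩ := ih
      obtain ⟨T', hT', hT'0, D', hD', hD'x⟩ := hN j (T ξ) hTξ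
      have hcc : ∀ x, (T' * T) * cj R (T' * T) x = (T' * cj R T' x) * (T * cj R T x) := by
        intro x
        rw [← cj_mul_cj h.toURep]
        calc T' * T * (cj R T' x * cj R T x) = T' * (T * cj R T' x) * cj R T x := by
              simp only [mul_assoc]
          _ = T' * (cj R T' x * T) * cj R T x := by rw [Bi.comm h𝒮 hT (hbc hT' x)]
          _ = _ := by simp only [mul_assoc]
      refine ⟨T' * T, hT'.mul hT, by simpa using hT'0, ?_⟩
      intro i hi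
      rcases Finset.mem_insert.mp hi with rfl | hi
      · exact ⟨D', hD', fun x hx => by rw [hcc, hD'x x hx, zero_mul]⟩
      · obtain ⟨D, hD, hDx⟩ := hTs i hi
        exact ⟨D, hD, fun x hx => by rw [hcc, hDx x hx, mul_zero]⟩
  cases nonempty_fintype I
  obtain ⟨T, hT, hTξ, hTs⟩ := key Finset.univ
  choose D hD hDx using fun i => hTs i (Finset.mem_univ i)
  refine ⟨T, hT, fun h0 => hTξ (by rw [h0]; rfl), (hfin D hD).subset ?_⟩
  intro x hx i
  by_contra hxi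
  exact hx (hDx i x hxi)

/-! ### Families of joint eigenvectors -/

theorem JE.of_mem {𝒮 : Set (E →L[ℂ] E)} {w u : E} (hw : JE 𝒮 w) (hu0 : u ≠ 0)
    (hu : u ∈ eig 𝒮 w) : JE 𝒮 u :=
  ⟨hu0, fun S hS => by
    obtain ⟨μ, hμ⟩ := hw.2 S hS
    exact ⟨μ, hu S hS μ hμ⟩⟩

/-- A good family of joint eigenvectors. -/
structure Good (R : X → (E →L[ℂ] E)) (𝒮 : Set (E →L[ℂ] E)) (s : Finset E) : Prop where
  norm : ∀ u ∈ s, ‖u‖ = 1
  orth : ∀ u ∈ s, ∀ v ∈ s, u ≠ v → ⟪u, v⟫_ℂ = 0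
  je : ∀ u ∈ s, JE 𝒮 u
  rep : ∀ u ∈ s, ∀ v ∈ s, ∀ x, R x u ∈ eig 𝒮 v → u ∈ eig 𝒮 v

section good

variable {𝒮 : Set (E →L[ℂ] E)}

theorem Good.orthonormal {s : Finset E} (h : Good R 𝒮 s) :
    Orthonormal ℂ fun u : s => (u : E) :=
  ⟨fun u => h.norm u u.2, fun u v hne => h.orth u u.2 v v.2 fun h1 => hne (Subtype.ext h1)⟩

/-- Good families have bounded cardinality. -/
theorem Good.card_le [DecidableEq E] (h : FReg R ξ C) (h𝒮 : CFam 𝒮)
    (hR' : ∀ x, ∀ S ∈ 𝒮, R x⁻¹ * S * R x ∈ 𝒮) {N : Finset X}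
    (hfree : ∀ w, JE 𝒮 w → ∀ x, R x w ∈ eig 𝒮 w → x ∈ N) {s : Finset E} (hs : Good R 𝒮 s) :
    (s.card : ℝ) * C ≤ N.card * ‖ξ‖ ^ 2 := by
  classical
  obtain ⟨L, hL⟩ : ∃ L : Submodule ℂ E, L = Submodule.span ℂ (s : Set E) := ⟨_, rfl⟩
  haveI : FiniteDimensional ℂ L := by rw [hL]; exact FiniteDimensional.span_finset ℂ s
  obtain ⟨F, hF⟩ : ∃ F : E →L[ℂ] E, F = L.starProjection := ⟨_, rfl⟩
  have hFF : F * F = F := by rw [hF]; exact L.isIdempotentElem_starProjection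
  have hFa : adjoint F = F := by
    have := isSelfAdjoint_starProjection L
    rw [isSelfAdjoint_iff, star_eq_adjoint] at this
    rw [hF]; exact this
  have hFn : ‖F‖ ≤ 1 := by rw [hF]; exact Submodule.starProjection_norm_le L
  have hFs : ∀ u ∈ s, F u = u := fun u hu => by
    rw [hF]
    exact Submodule.starProjection_eq_self_iff.mpr (by rw [hL]; exact Submodule.subset_span hu)
  have hFm : ∀ v, F v ∈ L := fun v => by rw [hF]; exact Submodule.starProjection_apply_mem _ _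
  have hJR : ∀ u ∈ s, ∀ x, JE 𝒮 (R x u) := fun u hu x =>
    (hs.je u hu).map (R_mul_inv h.toURep x) (R_inv_mul h.toURep x) (hR' x)
  -- orthogonality of the translates
  have ho : ∀ x, x ∉ N → ∀ u ∈ s, ∀ v ∈ s, ⟪v, R x u⟫_ℂ = 0 := by
    intro x hx u hu v hv
    refine eig_orth h𝒮 (hs.je v hv) (hJR u hu x) (fun hm => hx ?_) (self_mem_eig _ _)
      (self_mem_eig _ _)
    have h1 := hs.rep u hu v hv x hm
    have h2 := eig_eq (hs.je v hv) (hs.je u hu).1 h1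
    rw [← h2] at hm
    exact hfree u (hs.je u hu) x hm
  have hN : ∀ x, x ∉ N → (adjoint F * F) * cj R (adjoint F * F) x = 0 := by
    intro x hx
    rw [hFa, hFF]
    have h1 : ∀ v ∈ L, ∀ u ∈ L, ⟪v, R x u⟫_ℂ = 0 := by
      intro v hv u hu
      rw [hL] at hv hu
      induction hu using Submodule.span_induction with
      | mem u hu =>
        induction hv using Submodule.span_induction with
        | mem v hv => exact ho x hx u hu v hv
        | zero => exact inner_zero_left _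
        | add a b _ _ ha hb => rw [inner_add_left, ha, hb, add_zero]
        | smul c a _ ha => rw [inner_smul_left, ha, mul_zero]
      | zero => rw [map_zero]; exact inner_zero_right _
      | add a b _ _ ha hb => rw [map_add, inner_add_right, ha, hb, add_zero]
      | smul c a _ ha => rw [map_smul, inner_smul_right, ha, mul_zero]
    ext v
    change F (R x (F (R x⁻¹ v))) = 0
    rw [← inner_self_eq_zero (𝕜 := ℂ)]
    have h2 : ⟪F (R x (F (R x⁻¹ v))), F (R x (F (R x⁻¹ v)))⟫_ℂ =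
        ⟪F (F (R x (F (R x⁻¹ v)))), R x (F (R x⁻¹ v))⟫_ℂ := by
      conv_lhs => rw [← adjoint_inner_left, hFa]
    rw [h2]
    exact h1 _ (hFm _) _ (hFm _)
  have h3 : ∀ u : s, HasSum (fun x => ‖⟪R x ξ, (u : E)⟫_ℂ‖ ^ 2) (C * ‖(u : E)‖ ^ 2) :=
    fun u => h.frame _
  have h4 : HasSum (fun x => ∑ u : s, ‖⟪R x ξ, (u : E)⟫_ℂ‖ ^ 2) (∑ u : s, C * ‖(u : E)‖ ^ 2) :=
    hasSum_sum fun j _ => h3 j
  have h5 : ∑ u : s, C * ‖(u : E)‖ ^ 2 = s.card * C := by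
    have : ∀ u : s, C * ‖(u : E)‖ ^ 2 = C := fun u => by rw [hs.norm u u.2, one_pow, mul_one]
    rw [Finset.sum_congr rfl fun u _ => this u]
    simp
  rw [← h5]
  refine hasSum_le_of_sum_le h4 fun t => ?_
  have h6 := almost_orth h.toURep hN (t.image fun x => x⁻¹) ξ
  rw [Finset.sum_image (fun a _ b _ hab => inv_injective hab)] at h6
  simp only [inv_inv] at h6
  have h7 : ∑ x ∈ t, ∑ u : s, ‖⟪R x ξ, (u : E)⟫_ℂ‖ ^ 2 ≤ ∑ x ∈ t, ‖F (R x ξ)‖ ^ 2 := by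
    refine Finset.sum_le_sum fun x _ => ?_
    have h8 := hs.orthonormal.sum_inner_products_le (F (R x ξ)) (s := Finset.univ)
    refine le_trans (le_of_eq ?_) h8
    refine Finset.sum_congr rfl fun u _ => ?_
    rw [← adjoint_inner_left, hFa, hFs u u.2, norm_inner_symm]
  refine h7.trans (h6.trans ?_)
  have h9 : ‖F‖ ^ 2 ≤ 1 := by
    calc ‖F‖ ^ 2 ≤ 1 ^ 2 := pow_le_pow_left₀ (norm_nonneg _) hFn 2
      _ = 1 := one_pow 2
  have h10 : (0 : ℝ) ≤ N.card := Nat.cast_nonneg _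
  calc (N.card * ‖F‖ ^ 2) * ‖ξ‖ ^ 2 ≤ (N.card * 1) * ‖ξ‖ ^ 2 := by gcongr
    _ = _ := by rw [mul_one]

/-- A maximal good family. -/
theorem exists_max (h : FReg R ξ C) (h𝒮 : CFam 𝒮)
    (hR' : ∀ x, ∀ S ∈ 𝒮, R x⁻¹ * S * R x ∈ 𝒮) {N : Finset X}
    (hfree : ∀ w, JE 𝒮 w → ∀ x, R x w ∈ eig 𝒮 w → x ∈ N) :
    ∃ s : Finset E, Good R 𝒮 s ∧ ∀ t : Finset E, Good R 𝒮 t → t.card ≤ s.card := by
  classical
  obtain ⟨n, hn⟩ := exists_nat_gt (N.card * ‖ξ‖ ^ 2 / C)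
  have hb : ∀ t : Finset E, Good R 𝒮 t → t.card ≤ n := by
    intro t ht
    have h1 := Good.card_le h h𝒮 hR' hfree ht
    have h2 : (t.card : ℝ) ≤ N.card * ‖ξ‖ ^ 2 / C := by
      rw [le_div_iff₀ h.pos]; exact h1
    exact_mod_cast (h2.trans hn.le)
  have h0 : Good R 𝒮 (∅ : Finset E) := ⟨by simp, by simp, by simp, by simp⟩
  have h1 := Nat.findGreatest_spec (P := fun k => ∃ t : Finset E, Good R 𝒮 t ∧ t.card = k)
    (Nat.zero_le n) ⟨∅, h0, rfl⟩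
  obtain ⟨s, hs, hsc⟩ := h1
  refine ⟨s, hs, fun t ht => ?_⟩
  rw [hsc]
  exact Nat.le_findGreatest (hb t ht) ⟨t, ht, rfl⟩

/-- Every joint eigenvector overlaps uniformly with the translates of a maximal good family. -/
theorem overlap_max (h : FReg R ξ C) (h𝒮 : CFam 𝒮)
    (hR : ∀ x, ∀ S ∈ 𝒮, R x * S * R x⁻¹ ∈ 𝒮)
    (hR' : ∀ x, ∀ S ∈ 𝒮, R x⁻¹ * S * R x ∈ 𝒮) {s : Finset E} (hs : Good R 𝒮 s)
    (hm : ∀ t : Finset E, Good R 𝒮 t → t.card ≤ s.card) {u : E} (hu : JE 𝒮 u) (hu1 : ‖u‖ = 1) :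
    ∃ v ∈ s, ∃ x, (1 : ℝ) ≤ s.card * ‖⟪u, R x v⟫_ℂ‖ ^ 2 := by
  classical
  have hR1 := R_mul_inv (R := R) h.toURep
  have hR2 := R_inv_mul (R := R) h.toURep
  have hRR : ∀ x v, R x (R x⁻¹ v) = v := fun x v => by
    have := congrArg (fun T : E →L[ℂ] E => T v) (hR1 x)
    simpa using this
  have hRR' : ∀ x v, R x⁻¹ (R x v) = v := fun x v => by
    have := congrArg (fun T : E →L[ℂ] E => T v) (hR2 x)
    simpa using this
  have hJR : ∀ {w}, JE 𝒮 w → ∀ x, JE 𝒮 (R x w) := fun hw x => hw.map (hR1 x) (hR2 x) (hR' x)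
  have hmap : ∀ {w v} x, v ∈ eig 𝒮 w → R x v ∈ eig 𝒮 (R x w) := fun x hv =>
    eig_map (hR1 x) (hR2 x) (hR' x) hv
  -- adding a vector
  have hadd : ∀ v : E, ‖v‖ = 1 → JE 𝒮 v → (∀ a ∈ s, ⟪a, v⟫_ℂ = 0) →
      (∀ a ∈ s, ∀ x, R x a ∈ eig 𝒮 v → a ∈ eig 𝒮 v) →
      (∀ a ∈ s, ∀ x, R x v ∈ eig 𝒮 a → v ∈ eig 𝒮 a) → False := by
    intro v hv1 hv ho h1 h2
    have hvs : v ∉ s := fun hmem => by
      have h3 := ho v hmem
      rw [inner_self_eq_zero] at h3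
      rw [h3, norm_zero] at hv1
      exact zero_ne_one hv1
    have hg : Good R 𝒮 (insert v s) := by
      refine ⟨?_, ?_, ?_, ?_⟩
      · intro a ha
        rcases Finset.mem_insert.mp ha with rfl | ha
        · exact hv1
        · exact hs.norm a ha
      · intro a ha b hb hne
        rcases Finset.mem_insert.mp ha with ha' | ha' <;>
          rcases Finset.mem_insert.mp hb with hb' | hb'
        · exact absurd (ha'.trans hb'.symm) hne
        · rw [ha', ← inner_conj_symm, ho b hb', map_zero]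
        · rw [hb']; exact ho a ha'
        · exact hs.orth a ha' b hb' hne
      · intro a ha
        rcases Finset.mem_insert.mp ha with rfl | ha
        · exact hv
        · exact hs.je a ha
      · intro a ha b hb x hx
        rcases Finset.mem_insert.mp ha with ha' | ha' <;>
          rcases Finset.mem_insert.mp hb with hb' | hb'
        · rw [ha', hb']; exact self_mem_eig _ _
        · rw [ha'] at hx ⊢; exact h2 b hb' x hx
        · rw [hb'] at hx ⊢; exact h1 a ha' x hx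
        · exact hs.rep a ha' b hb' x hx
    have h3 := hm _ hg
    rw [Finset.card_insert_of_notMem hvs] at h3
    omega
  by_cases hcase : ∃ a ∈ s, ∃ x, R x a ∈ eig 𝒮 u
  · obtain ⟨a, ha, x, hx⟩ := hcase
    -- the translate of `u` in the eigenspace of `a`
    obtain ⟨v, hv⟩ : ∃ v, v = R x⁻¹ u := ⟨_, rfl⟩
    have hvu : R x v = u := by rw [hv, hRR]
    have hvn : ‖v‖ = 1 := by
      rw [hv, h.toURep.norm_map]; exact hu1
    have hva : v ∈ eig 𝒮 a := by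
      have h1 : u ∈ eig 𝒮 (R x a) := by
        rw [eig_eq hu (hJR (hs.je a ha) x).1 hx]
        exact self_mem_eig _ _
      have h2 := hmap x⁻¹ h1
      rwa [hRR', ← hv] at h2
    have hv0 : v ≠ 0 := fun h0 => by
      rw [h0, norm_zero] at hvn
      exact zero_ne_one hvn
    obtain ⟨t, ht⟩ : ∃ t : Finset E, t = s.filter fun b => b ∈ eig 𝒮 a := ⟨_, rfl⟩
    have hts : ∀ b, b ∈ t ↔ b ∈ s ∧ b ∈ eig 𝒮 a := fun b => by rw [ht, Finset.mem_filter]
    obtain ⟨v', hv'⟩ : ∃ v', v' = v - ∑ b ∈ t, ⟪b, v⟫_ℂ • b := ⟨_, rfl⟩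
    have hot : ∀ b ∈ t, ⟪b, v'⟫_ℂ = 0 := by
      intro b hb
      rw [hv', inner_sub_right, inner_sum]
      have h1 : ∀ c ∈ t, c ≠ b → ⟪b, ⟪c, v⟫_ℂ • c⟫_ℂ = 0 := by
        intro c hc hne
        rw [inner_smul_right, hs.orth b ((hts b).mp hb).1 c ((hts c).mp hc).1 hne.symm, mul_zero]
      rw [Finset.sum_eq_single_of_mem b hb h1, inner_smul_right, inner_self_eq_norm_sq_to_K,
        hs.norm b ((hts b).mp hb).1]
      simp
    have hva' : v' ∈ eig 𝒮 a := by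
      rw [hv']
      refine Submodule.sub_mem _ hva (Submodule.sum_mem _ fun b hb => ?_)
      exact Submodule.smul_mem _ _ ((hts b).mp hb).2
    have hzero : v' = 0 := by
      by_contra hne
      have hn0 : (‖v'‖ : ℂ) ≠ 0 := by
        exact_mod_cast norm_ne_zero_iff.mpr hne
      obtain ⟨w, hw⟩ : ∃ w, w = ((‖v'‖ : ℂ)⁻¹) • v' := ⟨_, rfl⟩
      have hw1 : ‖w‖ = 1 := by
        rw [hw, norm_smul, norm_inv, Complex.norm_real, norm_norm,
          inv_mul_cancel₀ (norm_ne_zero_iff.mpr hne)]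
      have hwa : w ∈ eig 𝒮 a := by rw [hw]; exact Submodule.smul_mem _ _ hva'
      have hw0 : w ≠ 0 := fun h0 => by
        rw [h0, norm_zero] at hw1
        exact zero_ne_one hw1
      have hwJ : JE 𝒮 w := JE.of_mem (hs.je a ha) hw0 hwa
      have hwe : eig 𝒮 w = eig 𝒮 a := eig_eq (hs.je a ha) hw0 hwa
      refine hadd w hw1 hwJ ?_ ?_ ?_
      · intro b hb
        by_cases hba : b ∈ eig 𝒮 a
        · rw [hw, inner_smul_right, hot b ((hts b).mpr ⟨hb, hba⟩), mul_zero]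
        · rw [← inner_conj_symm, eig_orth h𝒮 (hs.je a ha) (hs.je b hb) hba hwa
            (self_mem_eig _ _), map_zero]
      · intro b hb y hy
        rw [hwe] at hy ⊢
        exact hs.rep b hb a ha y hy
      · intro b hb y hy
        -- `R y w ∈ eig b`, hence `R y a ∈ eig b`
        have h1 : eig 𝒮 (R y w) = eig 𝒮 b := eig_eq (hs.je b hb) (hJR hwJ y).1 hy
        have h2 : a ∈ eig 𝒮 w := by rw [hwe]; exact self_mem_eig _ _
        have h3 : R y a ∈ eig 𝒮 b := by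
          rw [← h1]
          exact hmap y h2
        have h4 := hs.rep a ha b hb y h3
        have h5 : eig 𝒮 a = eig 𝒮 b := eig_eq (hs.je b hb) (hs.je a ha).1 h4
        rw [← h5]
        exact hwa
    have hveq : v = ∑ b ∈ t, ⟪b, v⟫_ℂ • b := by
      rw [hv', sub_eq_zero] at hzero
      exact hzero
    have hsum : (1 : ℝ) = ∑ b ∈ t, ‖⟪b, v⟫_ℂ‖ ^ 2 := by
      have h1 : ⟪v, v⟫_ℂ = ∑ b ∈ t, ⟪b, v⟫_ℂ * ⟪v, b⟫_ℂ := by
        conv_lhs => rhs; rw [hveq]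
        rw [inner_sum]
        exact Finset.sum_congr rfl fun b _ => inner_smul_right _ _ _
      rw [inner_self_eq_norm_sq_to_K, hvn] at h1
      have h2 : ∀ b, ⟪b, v⟫_ℂ * ⟪v, b⟫_ℂ = ((‖⟪b, v⟫_ℂ‖ ^ 2 : ℝ) : ℂ) := by
        intro b
        rw [← inner_conj_symm v b, Complex.mul_conj, Complex.normSq_eq_norm_sq]
      rw [Finset.sum_congr rfl fun b _ => h2 b, ← Complex.ofReal_sum] at h1
      have h3 := congrArg Complex.re h1
      rw [Complex.ofReal_re] at h3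
      rw [← h3]
      simp
    by_contra hno
    push Not at hno
    have hpos : 0 < s.card := Finset.card_pos.mpr ⟨a, ha⟩
    have hpos' : (0 : ℝ) < s.card := by exact_mod_cast hpos
    have hb1 : ∀ b ∈ s, ‖⟪b, v⟫_ℂ‖ ^ 2 < 1 / s.card := by
      intro b hb
      have h1 := hno b hb x
      have h2 : ‖⟪u, R x b⟫_ℂ‖ = ‖⟪b, v⟫_ℂ‖ := by
        rw [norm_inner_symm, ← hvu, h.toURep.inner_map]
      rw [h2] at h1
      rw [lt_div_iff₀ hpos']
      linarith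
    have hne : t.Nonempty := ⟨a, (hts a).mpr ⟨ha, self_mem_eig _ _⟩⟩
    have h6 : ∑ b ∈ t, ‖⟪b, v⟫_ℂ‖ ^ 2 < ∑ b ∈ t, 1 / (s.card : ℝ) :=
      Finset.sum_lt_sum_of_nonempty hne fun b hb => hb1 b ((hts b).mp hb).1
    rw [← hsum, Finset.sum_const, nsmul_eq_mul] at h6
    have h7 : (t.card : ℝ) * (1 / s.card) ≤ 1 := by
      rw [mul_one_div, div_le_one hpos']
      have : t.card ≤ s.card := by rw [ht]; exact Finset.card_filter_le _ _
      exact_mod_cast this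
    linarith
  · exfalso
    push Not at hcase
    refine hadd u hu1 hu ?_ ?_ ?_
    · intro a ha
      have h1 := hcase a ha 1
      rw [h.toURep.one_apply] at h1
      rw [← inner_conj_symm, eig_orth h𝒮 hu (hs.je a ha) h1 (self_mem_eig _ _)
        (self_mem_eig _ _), map_zero]
    · intro a ha x hx
      exact absurd hx (hcase a ha x)
    · intro a ha x hx
      exfalso
      have h1 := eig_eq (hs.je a ha) (hJR hu x).1 hx
      have h2 : a ∈ eig 𝒮 (R x u) := by rw [h1]; exact self_mem_eig _ _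
      have h3 := hmap x⁻¹ h2
      rw [hRR'] at h3
      exact hcase a ha x⁻¹ h3

end good

/-- **Q-END for all `t`**, any finite family of places. -/
theorem q_end (h : FReg R ξ C) (hV : URep V) (hVR : ∀ g x, V g * R x = R x * V g)
    {I : Type*} [Finite I] {G : I → Type*} [∀ i, Group (G i)] [∀ i, TopologicalSpace (G i)]
    [∀ i, MeasurableSpace (G i)] [∀ i, IsTopologicalGroup (G i)] [∀ i, LocallyCompactSpace (G i)]
    [∀ i, T2Space (G i)] [∀ i, SigmaCompactSpace (G i)] [∀ i, BorelSpace (G i)]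
    (ι : ∀ i, X →* G i) (μ : ∀ i, Measure (G i)) [∀ i, (μ i).IsHaarMeasure]
    (𝒜 : ∀ i, Set (G i → (E →L[ℂ] E))) (hP : ∀ i, Pla R V (ι i) (μ i) (𝒜 i))
    (hcomm : ∀ i j, ∀ a ∈ 𝒜 i, ∀ b ∈ 𝒜 j, ∀ x y, a x * b y = b y * a x)
    (hfree : ∀ i, Free (𝒜 i))
    (hfin : ∀ D : ∀ i, Set (G i), (∀ i, IsCompact (D i)) → {x | ∀ i, ι i x ∈ D i}.Finite) :
    ∃ (r : ℕ) (ζ : Fin r → E) (κ : ℝ), 0 < κ ∧ (∀ i, ‖ζ i‖ = 1) ∧
      ∀ g, ∃ i j x, κ ≤ ‖⟪V g (ζ i), R x (ζ j)⟫_ℂ‖ := by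
  classical
  obtain ⟨𝒮, h𝒮⟩ : ∃ 𝒮 : Set (E →L[ℂ] E), 𝒮 = ⋃ i, vals (𝒜 i) := ⟨_, rfl⟩
  have hm : ∀ S, S ∈ 𝒮 ↔ ∃ i, S ∈ vals (𝒜 i) := fun S => by rw [h𝒮, Set.mem_iUnion]
  have hsub : ∀ i, vals (𝒜 i) ⊆ 𝒮 := fun i S hS => (hm S).mpr ⟨i, hS⟩
  have hCF : CFam 𝒮 := by
    constructor
    · intro S hS S' hS'
      obtain ⟨i, a, ha, x, rfl⟩ := (hm S).mp hS
      obtain ⟨j, b, hb, y, rfl⟩ := (hm S').mp hS'
      exact hcomm i j a ha b hb x y
    · intro S hS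
      obtain ⟨i, hi⟩ := (hm S).mp hS
      exact hsub i ((hP i).vals_adj S hi)
  have hR : ∀ x, ∀ S ∈ 𝒮, R x * S * R x⁻¹ ∈ 𝒮 := by
    intro x S hS
    obtain ⟨i, hi⟩ := (hm S).mp hS
    exact hsub i ((hP i).vals_R x S hi)
  have hVS : ∀ g, ∀ S ∈ 𝒮, V g * S * V g⁻¹ ∈ 𝒮 := by
    intro g S hS
    obtain ⟨i, hi⟩ := (hm S).mp hS
    exact hsub i ((hP i).vals_V g S hi)
  have hR' : ∀ x, ∀ S ∈ 𝒮, R x⁻¹ * S * R x ∈ 𝒮 := fun x S hS => by
    have := hR x⁻¹ S hS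
    rwa [inv_inv] at this
  have hV' : ∀ x, ∀ S ∈ 𝒮, V x⁻¹ * S * V x ∈ 𝒮 := fun x S hS => by
    have := hVS x⁻¹ S hS
    rwa [inv_inv] at this
  obtain ⟨T, hT, hT0, hTf⟩ := exists_T h hCF hR
    (𝒦 := fun i => {D | ∃ K : Set (G i), IsCompact K ∧ D = ι i ⁻¹' K})
    (fun i => (hP i).nd h.toURep hCF hR (hsub i))
    (by
      intro D hDi
      choose K hK hKD using hDi
      refine (hfin K hK).subset fun x hx i => ?_
      have := hx i
      rw [hKD i] at this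
      exact this)
  obtain ⟨w₀, hw₀⟩ := exists_JE h hCF hR hT hT0 hTf
  have hNfin : {x : X | ∀ i, ι i x ∈ ({1} : Set (G i))}.Finite :=
    hfin (fun i => {1}) fun i => isCompact_singleton
  obtain ⟨N, hNd⟩ : ∃ N : Finset X, N = hNfin.toFinset := ⟨_, rfl⟩
  have hfr : ∀ w, JE 𝒮 w → ∀ x, R x w ∈ eig 𝒮 w → x ∈ N := by
    intro w hw x hx
    rw [hNd, Set.Finite.mem_toFinset]
    intro i
    exact (hP i).free_use h.toURep (hfree i) (hsub i) hw hx
  obtain ⟨s, hs, hmax⟩ := exists_max h hCF hR' hfr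
  have hone : ∃ u, JE 𝒮 u ∧ ‖u‖ = 1 := by
    have hn0 : (‖w₀‖ : ℂ) ≠ 0 := by exact_mod_cast norm_ne_zero_iff.mpr hw₀.1
    refine ⟨((‖w₀‖ : ℂ)⁻¹) • w₀, JE.of_mem hw₀ (smul_ne_zero (inv_ne_zero hn0) hw₀.1)
      (Submodule.smul_mem _ _ (self_mem_eig _ _)), ?_⟩
    rw [norm_smul, norm_inv, Complex.norm_real, norm_norm,
      inv_mul_cancel₀ (norm_ne_zero_iff.mpr hw₀.1)]
  obtain ⟨u₀, hu₀, hu₀1⟩ := hone
  obtain ⟨a₀, ha₀, -⟩ := overlap_max h hCF hR hR' hs hmax hu₀ hu₀1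
  have hpos : 0 < s.card := Finset.card_pos.mpr ⟨a₀, ha₀⟩
  have hpos' : (0 : ℝ) < s.card := by exact_mod_cast hpos
  let e := s.equivFin
  refine ⟨s.card, fun i => (e.symm i : E), 1 / s.card, by positivity,
    fun i => hs.norm _ (e.symm i).2, fun g => ?_⟩
  have hVJ : JE 𝒮 (V g a₀) :=
    (hs.je a₀ ha₀).map (R_mul_inv hV g) (R_inv_mul hV g) (hV' g)
  have hVn : ‖V g a₀‖ = 1 := by rw [hV.norm_map]; exact hs.norm a₀ ha₀
  obtain ⟨v, hv, x, hx⟩ := overlap_max h hCF hR hR' hs hmax hVJ hVn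
  refine ⟨e ⟨a₀, ha₀⟩, e ⟨v, hv⟩, x, ?_⟩
  have e1 : ((e.symm (e ⟨a₀, ha₀⟩) : s) : E) = a₀ := by rw [Equiv.symm_apply_apply]
  have e2 : ((e.symm (e ⟨v, hv⟩) : s) : E) = v := by rw [Equiv.symm_apply_apply]
  change 1 / (s.card : ℝ) ≤ ‖⟪V g ((e.symm (e ⟨a₀, ha₀⟩) : s) : E),
    R x ((e.symm (e ⟨v, hv⟩) : s) : E)⟫_ℂ‖
  rw [e1, e2]
  -- from the square to the value
  have h1 : ‖⟪V g a₀, R x v⟫_ℂ‖ ≤ 1 := by
    refine (norm_inner_le_norm _ _).trans ?_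
    rw [hVn, h.toURep.norm_map, hs.norm v hv, one_mul]
  have h2 : ‖⟪V g a₀, R x v⟫_ℂ‖ ^ 2 ≤ ‖⟪V g a₀, R x v⟫_ℂ‖ := by
    have h3 := norm_nonneg (⟪V g a₀, R x v⟫_ℂ)
    nlinarith
  rw [div_le_iff₀ hpos']
  calc (1 : ℝ) ≤ s.card * ‖⟪V g a₀, R x v⟫_ℂ‖ ^ 2 := hx
    _ ≤ s.card * ‖⟪V g a₀, R x v⟫_ℂ‖ := mul_le_mul_of_nonneg_left h2 hpos'.le
    _ = ‖⟪V g a₀, R x v⟫_ℂ‖ * s.card := mul_comm _ _

end Vale.Agent.P092.QT
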