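import Vale.Agent.P092.H160.Rep

/-!
P092 (helper305), project Q for all amplifications: unitary representations with a unit vector whose
translates form a tight frame (instead of an orthonormal basis).
-/

set_option linter.all false

open scoped InnerProductSpace
open Filter Topology ContinuousLinearMap

namespace Vale.Agent.P092.QT

open Vale.Agent.P092.H160 (Cmm mul_ap)

/-- A unitary representation `π` with a unit vector `ξ` whose translates form a tight frame. -/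
structure TRep {G : Type} [Group G] {H : Type} [NormedAddCommGroup H] [InnerProductSpace ℂ H]
    [CompleteSpace H] (π : G →* (H →L[ℂ] H)) (ξ : H) : Prop where
  adj : ∀ g, adjoint (π g) = π g⁻¹
  norm_one : ‖ξ‖ = 1
  frame : ∃ C : ℝ, 0 < C ∧ ∀ v : H, HasSum (fun g => ‖⟪π g ξ, v⟫_ℂ‖ ^ 2) (C * ‖v‖ ^ 2)

section general

variable {G : Type} [Group G] {H : Type} [NormedAddCommGroup H] [InnerProductSpace ℂ H]
    [CompleteSpace H] {π : G →* (H →L[ℂ] H)} {ξ : H}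

/-- Polarisation of a tight frame. -/
theorem polar {I : Type} (e : I → H) {C : ℝ}
    (h : ∀ v : H, HasSum (fun i => ‖⟪e i, v⟫_ℂ‖ ^ 2) (C * ‖v‖ ^ 2)) (u v : H) :
    HasSum (fun i => ⟪u, e i⟫_ℂ * ⟪e i, v⟫_ℂ) (C * ⟪u, v⟫_ℂ) := by
  have hc : ∀ w : H, HasSum (fun i => ((‖⟪e i, w⟫_ℂ‖ ^ 2 : ℝ) : ℂ)) ((C * ‖w‖ ^ 2 : ℝ) : ℂ) :=
    fun w => Complex.hasSum_ofReal.mpr (h w)
  have h1 := hc (u + v)
  have h2 := hc (u - v)
  have h3 := hc (u + Complex.I • v)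
  have h4 := hc (u - Complex.I • v)
  have h5 := ((h1.sub h2).sub ((h3.sub h4).mul_left Complex.I)).mul_left (1 / 4 : ℂ)
  have id1 : ∀ a b : ℂ, a * (starRingEnd ℂ) b = (1 / 4 : ℂ) *
      ((((‖b + a‖ ^ 2 : ℝ) : ℂ) - ((‖b - a‖ ^ 2 : ℝ) : ℂ)) -
      Complex.I * (((‖b + Complex.I * a‖ ^ 2 : ℝ) : ℂ) -
        ((‖b - Complex.I * a‖ ^ 2 : ℝ) : ℂ))) := by
    intro a b
    have hn : ∀ z : ℂ, ((‖z‖ ^ 2 : ℝ) : ℂ) = z * (starRingEnd ℂ) z := fun z => by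
      rw [Complex.mul_conj, Complex.normSq_eq_norm_sq]
    rw [hn, hn, hn, hn]
    simp only [map_add, map_sub, map_mul, Complex.conj_I]
    ring_nf
    rw [Complex.I_sq]
    ring
  have hn2 : ∀ x : H, ((‖x‖ ^ 2 : ℝ) : ℂ) = ⟪x, x⟫_ℂ := fun x => by
    rw [inner_self_eq_norm_sq_to_K]
    norm_cast
  have e2 : (C : ℂ) * ⟪u, v⟫_ℂ = (1 / 4 : ℂ) *
      ((((C * ‖u + v‖ ^ 2 : ℝ) : ℂ) - ((C * ‖u - v‖ ^ 2 : ℝ) : ℂ)) -
      Complex.I * (((C * ‖u + Complex.I • v‖ ^ 2 : ℝ) : ℂ) -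
        ((C * ‖u - Complex.I • v‖ ^ 2 : ℝ) : ℂ))) := by
    rw [Complex.ofReal_mul, Complex.ofReal_mul, Complex.ofReal_mul, Complex.ofReal_mul, hn2, hn2,
      hn2, hn2]
    simp only [inner_add_left, inner_add_right, inner_sub_left, inner_sub_right,
      inner_smul_left, inner_smul_right, Complex.conj_I]
    ring_nf
    rw [Complex.I_sq]
    ring
  have e1 : (fun i => ⟪u, e i⟫_ℂ * ⟪e i, v⟫_ℂ) = fun i => (1 / 4 : ℂ) *
      ((((‖⟪e i, u + v⟫_ℂ‖ ^ 2 : ℝ) : ℂ) - ((‖⟪e i, u - v⟫_ℂ‖ ^ 2 : ℝ) : ℂ)) -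
      Complex.I * (((‖⟪e i, u + Complex.I • v⟫_ℂ‖ ^ 2 : ℝ) : ℂ) -
        ((‖⟪e i, u - Complex.I • v⟫_ℂ‖ ^ 2 : ℝ) : ℂ))) := by
    funext i
    have e1 := id1 ⟪e i, v⟫_ℂ ⟪e i, u⟫_ℂ
    rw [inner_conj_symm] at e1
    rw [mul_comm, e1]
    simp only [inner_add_right, inner_sub_right, inner_smul_right]
  rw [e1, e2]
  exact h5

namespace TRep

variable (h : TRep π ξ)

include h

theorem inv_apply (g : G) (v : H) : π g⁻¹ (π g v) = v := by
  rw [← mul_ap, ← map_mul, inv_mul_cancel, map_one]; rfl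

theorem apply_inv (g : G) (v : H) : π g (π g⁻¹ v) = v := by
  rw [← mul_ap, ← map_mul, mul_inv_cancel, map_one]; rfl

theorem inner_left (g : G) (u v : H) : ⟪π g u, v⟫_ℂ = ⟪u, π g⁻¹ v⟫_ℂ := by
  rw [← h.adj, adjoint_inner_right]

theorem inner_right (g : G) (u v : H) : ⟪u, π g v⟫_ℂ = ⟪π g⁻¹ u, v⟫_ℂ := by
  rw [← h.adj, adjoint_inner_left]

theorem inner_map (g : G) (u v : H) : ⟪π g u, π g v⟫_ℂ = ⟪u, v⟫_ℂ := by
  rw [h.inner_left, h.inv_apply]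

theorem norm_map (g : G) (v : H) : ‖π g v‖ = ‖v‖ := by
  have h1 := h.inner_map g v v
  rw [inner_self_eq_norm_sq_to_K, inner_self_eq_norm_sq_to_K] at h1
  have h2 : ‖π g v‖ ^ 2 = ‖v‖ ^ 2 := by exact_mod_cast h1
  exact (pow_left_inj₀ (norm_nonneg _) (norm_nonneg _) two_ne_zero).mp h2

theorem hasSum_inner : ∃ C : ℝ, 0 < C ∧ ∀ u v : H,
    HasSum (fun g => ⟪u, π g ξ⟫_ℂ * ⟪π g ξ, v⟫_ℂ) (C * ⟪u, v⟫_ℂ) := by
  obtain ⟨C, hC, h1⟩ := h.frame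
  exact ⟨C, hC, polar _ h1⟩

theorem summable_coeff (v : H) : Summable fun g => ‖⟪π g ξ, v⟫_ℂ‖ ^ 2 := by
  obtain ⟨C, hC, h1⟩ := h.frame
  exact (h1 v).summable

theorem total (v : H) (hv : ∀ g, ⟪π g ξ, v⟫_ℂ = 0) : v = 0 := by
  obtain ⟨C, hC, h1⟩ := h.frame
  have h2 := h1 v
  have h3 : (fun g => ‖⟪π g ξ, v⟫_ℂ‖ ^ 2) = fun _ => (0 : ℝ) := by
    funext g
    rw [hv g, norm_zero]
    norm_num
  rw [h3] at h2
  have h4 := h2.unique hasSum_zero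
  have h5 : ‖v‖ ^ 2 = 0 := by
    rcases mul_eq_zero.mp h4 with h6 | h6
    · exact absurd h6 hC.ne'
    · exact h6
  exact norm_eq_zero.mp (pow_eq_zero_iff two_ne_zero |>.mp h5)

theorem ext_op {A B : H →L[ℂ] H} (h1 : ∀ g, A (π g ξ) = B (π g ξ)) : A = B := by
  have h2 : adjoint (A - B) = 0 := by
    ext1 v
    refine h.total _ fun g => ?_
    rw [adjoint_inner_right, sub_apply, h1, sub_self, inner_zero_left]
  have h3 : A - B = 0 := by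
    rw [← adjoint_adjoint (A - B), h2, map_zero]
  exact sub_eq_zero.mp h3

theorem ext_vec {u v : H} (h1 : ∀ g, ⟪π g ξ, u⟫_ℂ = ⟪π g ξ, v⟫_ℂ) : u = v := by
  refine sub_eq_zero.mp (h.total _ fun g => ?_)
  rw [inner_sub_right, h1, sub_self]

theorem ext_cmm {A B : H →L[ℂ] H} (hA : Cmm π A) (hB : Cmm π B) (h1 : A ξ = B ξ) : A = B :=
  h.ext_op fun g => by rw [hA.apply, hB.apply, h1]

theorem cmm_adjoint {A : H →L[ℂ] H} (hA : Cmm π A) : Cmm π (adjoint A) := fun g => by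
  have h1 := congrArg adjoint (hA g⁻¹)
  rw [← star_eq_adjoint, ← star_eq_adjoint, star_mul, star_mul, star_eq_adjoint (π g⁻¹),
    h.adj, inv_inv, star_eq_adjoint] at h1
  exact h1.symm

theorem trace_comm {A B : H →L[ℂ] H} (hA : Cmm π A) (hB : Cmm π B) :
    ⟪ξ, A (B ξ)⟫_ℂ = ⟪ξ, B (A ξ)⟫_ℂ := by
  obtain ⟨C, hC, hs⟩ := h.hasSum_inner
  have h1 := hs (adjoint A ξ) (B ξ)
  have h2 := hs (adjoint B ξ) (A ξ)
  rw [adjoint_inner_left] at h1 h2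
  rw [← (Equiv.inv G).hasSum_iff] at h2
  have hC' : (C : ℂ) ≠ 0 := by exact_mod_cast hC.ne'
  refine mul_left_cancel₀ hC' (h1.unique ?_)
  convert h2 using 1
  funext g
  change _ = ⟪adjoint B ξ, π g⁻¹ ξ⟫_ℂ * ⟪π g⁻¹ ξ, A ξ⟫_ℂ
  rw [adjoint_inner_left, adjoint_inner_left, hA.apply, hB.apply, h.inner_left, h.inner_left,
    inv_inv, mul_comm]

theorem norm_adjoint {A : H →L[ℂ] H} (hA : Cmm π A) : ‖adjoint A ξ‖ = ‖A ξ‖ := by
  have h1 := h.trace_comm hA (h.cmm_adjoint hA)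
  have e1 : ⟪ξ, A (adjoint A ξ)⟫_ℂ = ⟪adjoint A ξ, adjoint A ξ⟫_ℂ := (adjoint_inner_left A _ _).symm
  have e2 : ⟪ξ, adjoint A (A ξ)⟫_ℂ = ⟪A ξ, A ξ⟫_ℂ := adjoint_inner_right A _ _
  rw [e1, e2, inner_self_eq_norm_sq_to_K, inner_self_eq_norm_sq_to_K] at h1
  have h2 : ‖adjoint A ξ‖ ^ 2 = ‖A ξ‖ ^ 2 := by exact_mod_cast h1
  exact (pow_left_inj₀ (norm_nonneg _) (norm_nonneg _) two_ne_zero).mp h2

/-- Isometries in the commutant are unitary. -/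
theorem finite {V : H →L[ℂ] H} (hV : Cmm π V) (hi : adjoint V * V = 1) : V * adjoint V = 1 := by
  have hV' := h.cmm_adjoint hV
  have h1 : ‖adjoint V ξ‖ = 1 := by
    rw [h.norm_adjoint hV]
    have h2 : ⟪V ξ, V ξ⟫_ℂ = ⟪ξ, ξ⟫_ℂ := by
      rw [← adjoint_inner_right, ← mul_ap, hi]; rfl
    rw [inner_self_eq_norm_sq_to_K, inner_self_eq_norm_sq_to_K] at h2
    have h3 : ‖V ξ‖ ^ 2 = ‖ξ‖ ^ 2 := by exact_mod_cast h2
    rw [(pow_left_inj₀ (norm_nonneg _) (norm_nonneg _) two_ne_zero).mp h3, h.norm_one]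
  refine h.ext_cmm (hV.mul hV') Cmm.one ?_
  change V (adjoint V ξ) = ξ
  have h4 : ⟪ξ, V (adjoint V ξ)⟫_ℂ = 1 := by
    rw [← adjoint_inner_left, inner_self_eq_norm_sq_to_K, h1]; simp
  have h5 : ‖V (adjoint V ξ)‖ = 1 := by
    have h2 : ⟪V (adjoint V ξ), V (adjoint V ξ)⟫_ℂ = ⟪adjoint V ξ, adjoint V ξ⟫_ℂ := by
      rw [← adjoint_inner_right, ← mul_ap (adjoint V) V, hi]; rfl
    rw [inner_self_eq_norm_sq_to_K, inner_self_eq_norm_sq_to_K] at h2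
    have h3 : ‖V (adjoint V ξ)‖ ^ 2 = ‖adjoint V ξ‖ ^ 2 := by exact_mod_cast h2
    rw [(pow_left_inj₀ (norm_nonneg _) (norm_nonneg _) two_ne_zero).mp h3, h1]
  have h6 : ⟪V (adjoint V ξ) - ξ, V (adjoint V ξ) - ξ⟫_ℂ = 0 := by
    rw [inner_sub_left, inner_sub_right, inner_sub_right, h4, ← inner_conj_symm _ ξ, h4,
      inner_self_eq_norm_sq_to_K, inner_self_eq_norm_sq_to_K, h5, h.norm_one]
    simp
  exact sub_eq_zero.mp (inner_self_eq_zero.mp h6)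

end TRep

/-- A regular representation is a tight one. -/
theorem TRep.of_reg (h : Vale.Agent.P092.H160.RegRep π ξ) : TRep π ξ where
  adj := h.adj
  norm_one := h.norm_one
  frame := by
    refine ⟨1, one_pos, fun v => ?_⟩
    have h1 := h.hasSum_inner v v
    have h3 := Complex.hasSum_re h1
    convert h3 using 1
    · funext γ
      rw [← inner_conj_symm v, ← Complex.normSq_eq_conj_mul_self, Complex.ofReal_re,
        Complex.normSq_eq_norm_sq]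
    · rw [inner_self_eq_norm_sq_to_K, one_mul]
      norm_cast

end general

end Vale.Agent.P092.QT
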